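import Vale.Agent.P352.N86.K.C4

/-!
# P352: a lemma of Howe-Moore type for point functionals, from the representation only
-/

set_option linter.all false

noncomputable section

open MeasureTheory Filter Topology SchwartzMap Complex
open scoped SchwartzMap ComplexConjugate ContDiff LineDeriv

namespace Vale.Agent.P352.N86

open GF (Ix V Fn Fld Theory Sch IsLor bas eta o sim pd tr ev bar)
open H246 H496 H755 H15 H846 H246R H746
open UniformSpace (Completion)

variable {D : Type*} [NormedAddCommGroup D] [InnerProductSpace ℂ D]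
variable {Q : GF.Theory D} {A : (V → V) → D → D}

/-! ### The group relations -/

section

variable (R : H15.Rep Q A)
include R

lemma lw_U_scale {s : ℝ} (hs : 0 < s) {L : Ix → V} (hL : GF.IsLor L) (y : Mink) (v : D) :
    U1 Q (-(s • lam L y)) (Q.U s L 0 v) = Q.U s L 0 (U1 Q (-y) v) := by
  have h1 := R.mul 1 GF.one (-(s • lam L y)).ofLp s L 0 v one_pos hs isLor_one hL
  have h2 := R.mul s L 0 1 GF.one (-y).ofLp v hs one_pos hL isLor_one
  have e1 : (fun m => sim 1 GF.one 0 (L m)) = L := by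
    funext m
    rw [sim_one]
    funext n
    simp
  have e2 : (fun m => sim 1 L 0 (GF.one m)) = L := by
    funext m n
    simp [sim, GF.one, bas]
  have e3 : sim 1 GF.one (-(s • lam L y)).ofLp 0 = sim s L 0 (-y).ofLp := by
    rw [sim_one]
    funext n
    simp [sim, lam_apply]
  rw [e1, one_mul, e3] at h1
  rw [e2, mul_one] at h2
  exact h1.trans h2.symm

lemma lw_U_inv {s : ℝ} (hs : 0 < s) {L : Ix → V} (hL : GF.IsLor L)
    (y : Mink) (v : D) : U1 Q (-y) (Q.U s L 0 v) = Q.U s L 0 (U1 Q (-(s⁻¹ • lam (linv L) y)) v) := by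
  rw [← lw_U_scale R hs hL]
  congr 2
  have h1 : lam L (s⁻¹ • lam (linv L) y) = s⁻¹ • y := by
    have h2 : ∀ (c : ℝ) (x : Mink), lam L (c • x) = c • lam L x := by
      intro c x
      ext n
      simp only [lam_apply, PiLp.smul_apply, smul_eq_mul, Finset.mul_sum]
      exact Finset.sum_congr rfl fun k _ => by ring
    rw [h2, lam_linv hL]
  rw [h1, smul_smul, mul_inv_cancel₀ hs.ne', one_smul]

lemma lw_Rn_Rn (c c' : ℝ × ℝ) (v : D) : Rn Q c (Rn Q c' v) = Rn Q (c + c') v := by
  unfold Rn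
  rw [R.mul 1 _ 0 1 _ 0 v one_pos one_pos (isLor_nr c) (isLor_nr c'), nr_add, one_mul,
    sim_zero']

omit R in
lemma lw_Rn_zero (v : D) : Rn Q 0 v = v := by
  unfold Rn
  rw [nr_zero]
  exact H755.U0 v

lemma lw_Rn_move (c : ℝ × ℝ) (v w : D) : inner ℂ (Rn Q c v) w = inner ℂ v (Rn Q (-c) w) := by
  rw [← Rn_inner (Q := Q) (-c) (Rn Q c v) w, lw_Rn_Rn R, neg_add_cancel, lw_Rn_zero]

lemma lw_Wd_Wd (s t : ℝ) (v : D) : H496.Wd Q s (H496.Wd Q t v) = H496.Wd Q (s + t) v := by
  unfold H496.Wd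
  rw [R.mul _ _ 0 _ _ 0 v (Real.exp_pos s) (Real.exp_pos t) (isLor_boost s) (isLor_boost t),
    boost_add, ← Real.exp_add, sim_zero']

lemma lw_Rn_Wd (c : ℝ × ℝ) (t : ℝ) (v : D) :
    Rn Q c (H496.Wd Q t v) = H496.Wd Q t (Rn Q (Real.exp t • c) v) := by
  unfold Rn H496.Wd
  rw [R.mul 1 _ 0 _ _ 0 v one_pos (Real.exp_pos t) (isLor_nr c) (isLor_boost t),
    R.mul _ _ 0 1 _ 0 v (Real.exp_pos t) one_pos (isLor_boost t) (isLor_nr _), nr_boost,
    one_mul, mul_one, sim_zero', sim_zero']

lemma lw_Rn_der (c : ℝ × ℝ) (v : D) (s : ℝ) :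
    HasDerivAt (fun s : ℝ => Rn Q (s • c) v) (Rn Q (s • c) (I • A (Xn c) v)) s := by
  have h1 := hasDerivAt_iso (Rn_add (Q := Q) (s • c)) (Rn_smul (s • c)) (Rn_norm (s • c))
    (Rn_der0 R c v)
  have h2 : HasDerivAt (fun t : ℝ => t - s) 1 s := by
    simpa using (hasDerivAt_id s).sub_const s
  have h3 : HasDerivAt (fun t : ℝ => Rn Q (s • c) (Rn Q (t • c) v))
      (Rn Q (s • c) (I • A (Xn c) v)) (s - s) := by
    rwa [sub_self]
  have h4 := HasDerivAt.scomp (h := fun t : ℝ => t - s) s h3 h2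
  rw [one_smul] at h4
  refine h4.congr_of_eventuallyEq (Eventually.of_forall fun t => ?_)
  show Rn Q (t • c) v = Rn Q (s • c) (Rn Q ((t - s) • c) v)
  rw [lw_Rn_Rn R, ← add_smul, add_sub_cancel]

/-- second differences of null rotations -/
lemma lw_Rn_second (c : ℝ × ℝ) (y : D) :
    Tendsto (fun h : ℝ => (h ^ 2)⁻¹ • (Rn Q ((2 * h) • c) y - (2 : ℝ) • Rn Q (h • c) y + y))
      (𝓝[>] 0) (𝓝 (I • A (Xn c) (I • A (Xn c) y))) := by
  have h1 := second_diff (u := fun s : ℝ => Rn Q (s • c) y)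
    (v := fun s => Rn Q (s • c) (I • A (Xn c) y)) (lw_Rn_der R c y) (Rn_der0 R c _)
  have h2 : Rn Q ((0 : ℝ) • c) y = y := by
    rw [zero_smul, lw_Rn_zero]
  simp only [h2] at h1
  exact h1

end

/-! ### Point functionals -/

/-- point functionals of weight two -/
structure PF (Q : Theory D) (φ : D → ℂ) : Prop where
  add : ∀ v w, φ (v + w) = φ v + φ w
  smul : ∀ (c : ℂ) v, φ (c • v) = c * φ v
  cont : ∀ v, Continuous fun x : Mink => φ (U1 Q (-x) v)
  bdd : ∀ v, ∃ C, ∀ x : Mink, ‖φ (U1 Q x v)‖ ≤ C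
  rep : ∀ F : 𝓢(Mink, ℂ), ∃ y : D, ∀ v, inner ℂ y v = ∫ x : Mink, conj (F x) * φ (U1 Q (-x) v)
  wd : ∀ t v, φ (H496.Wd Q t v) = (((Real.exp t ^ 2)⁻¹ : ℝ) : ℂ) * φ v

variable {φ : D → ℂ}

/-- LEMMA W from the representation -/
theorem lw_main (R : H15.Rep Q A) (h : PF Q φ) {B : D → D} (hB : HasAdj B)
    (hc : ∀ t v, B (H496.Wd Q t v) = H496.Wd Q t (B v)) (c : ℝ × ℝ) (u : ℝ) (v : D) :
    φ (Q.U 1 GF.one (-(u • nu (-1)))
      (B (Rn Q ((2 : ℝ) • c) v - (2 : ℂ) • Rn Q c v + v))) = 0 := by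
  obtain ⟨B', hadj⟩ := id hB
  -- the vectors
  set w : D → D := fun v => B (Rn Q ((2 : ℝ) • c) v - (2 : ℂ) • Rn Q c v + v) with hw
  set F : D → Mink → ℂ := fun v x => φ (U1 Q (-x) (w v)) with hF
  have hFc : ∀ v, Continuous (F v) := fun v => h.cont _
  -- the key limit
  have key : ∀ (f : 𝓢(Mink, ℂ)) (v : D), ∫ x : Mink, conj (f x) * F v (Pb x) = 0 := by
    intro f v0
    obtain ⟨yf, hyf⟩ := h.rep f
    set y : D := B' yf with hy
    set ξ : D := I • A (Xn (-c)) (I • A (Xn (-c)) y) with hξ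
    set Λ : D → ℂ := fun v => ∫ x : Mink, conj (f x) * F v (Pb x) with hΛ
    set wt : ℝ → D := fun t => ((Real.exp (-t)) ^ 2)⁻¹ •
      (Rn Q ((2 * Real.exp (-t)) • (-c)) y - (2 : ℝ) • Rn Q (Real.exp (-t) • (-c)) y + y) with hwt
    have hexp : Tendsto (fun t : ℝ => Real.exp (-t)) atTop (𝓝[>] 0) := by
      rw [tendsto_nhdsWithin_iff]
      exact ⟨Real.tendsto_exp_neg_atTop_nhds_zero, Eventually.of_forall fun t => Real.exp_pos _⟩
    have hwtl : Tendsto wt atTop (𝓝 ξ) := (lw_Rn_second R (-c) y).comp hexp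
    -- identity
    have hid : ∀ t (v : D), inner ℂ (wt t) (H496.Wd Q t v) =
        ∫ x : Mink, conj (f x) * F v ((Real.exp t)⁻¹ • lam (linv (mBoost t)) x) := by
      intro t v
      have e1 : ∀ z : D, inner ℂ (Rn Q ((2 * Real.exp (-t)) • (-c)) y -
          (2 : ℝ) • Rn Q (Real.exp (-t) • (-c)) y + y) z =
          inner ℂ y (Rn Q ((2 * Real.exp (-t)) • c) z - (2 : ℂ) • Rn Q (Real.exp (-t) • c) z + z) := by
        intro z
        rw [inner_add_left, inner_sub_left, inner_add_right, inner_sub_right, lw_Rn_move R]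
        have e2 : (2 : ℝ) • Rn Q (Real.exp (-t) • (-c)) y =
            (2 : ℂ) • Rn Q (Real.exp (-t) • (-c)) y := by
          rw [← coe_smul]; norm_num
        have e9 : conj (2 : ℂ) = 2 := map_ofNat _ 2
        rw [e2, inner_smul_left, inner_smul_right, lw_Rn_move R, smul_neg, smul_neg, neg_neg,
          neg_neg, e9]
      have e3 : ∀ k : ℝ, Rn Q ((k * Real.exp (-t)) • c) (H496.Wd Q t v) =
          H496.Wd Q t (Rn Q (k • c) v) := by
        intro k
        rw [lw_Rn_Wd R, smul_smul]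
        congr 2
        congr 1
        rw [mul_comm k, ← mul_assoc, ← Real.exp_add, add_neg_cancel, Real.exp_zero, one_mul]
      have e4 : Rn Q ((2 * Real.exp (-t)) • c) (H496.Wd Q t v) -
          (2 : ℂ) • Rn Q (Real.exp (-t) • c) (H496.Wd Q t v) + H496.Wd Q t v =
          H496.Wd Q t (Rn Q ((2 : ℝ) • c) v - (2 : ℂ) • Rn Q c v + v) := by
        have h1 := e3 1
        rw [one_mul, one_smul] at h1
        rw [e3 2, h1, sub_eq_add_neg, sub_eq_add_neg, ← neg_smul, ← neg_smul, Wd_add, Wd_add,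
          Wd_smul]
      have e5 : inner ℂ (wt t) (H496.Wd Q t v) = (((Real.exp (-t)) ^ 2)⁻¹ : ℝ) *
          inner ℂ yf (H496.Wd Q t (w v)) := by
        rw [hwt]
        simp only
        rw [← coe_smul, inner_smul_left, conj_ofReal, e1, e4, hy]
        congr 1
        have h1 : ∀ a b : D, inner ℂ (B' a) b = inner ℂ a (B b) := by
          intro a b
          rw [← inner_conj_symm, ← hadj, inner_conj_symm]
        rw [h1, hc]
      rw [e5, hyf, ← integral_const_mul]
      congr 1
      ext x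
      have e6 : U1 Q (-x) (H496.Wd Q t (w v)) =
          H496.Wd Q t (U1 Q (-((Real.exp t)⁻¹ • lam (linv (mBoost t)) x)) (w v)) :=
        lw_U_inv R (Real.exp_pos t) (isLor_boost t) x (w v)
      rw [e6, h.wd]
      have e7 : (((Real.exp (-t)) ^ 2)⁻¹ : ℝ) = Real.exp t ^ 2 := by
        rw [Real.exp_neg, inv_pow, inv_inv]
      rw [e7]
      have e8 : ((Real.exp t ^ 2 : ℝ) : ℂ) * (((Real.exp t ^ 2)⁻¹ : ℝ) : ℂ) = 1 := by
        rw [← ofReal_mul, mul_inv_cancel₀ (by positivity), ofReal_one]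
      simp only [hF]
      linear_combination (conj (f x) * φ
        (U1 Q (-((Real.exp t)⁻¹ • lam (linv (mBoost t)) x)) (w v))) * e8
    -- limit of the right hand side
    have hlim1 : ∀ v, Tendsto (fun t => inner ℂ (wt t) (H496.Wd Q t v)) atTop (𝓝 (Λ v)) := by
      intro v
      simp only [hid]
      obtain ⟨C, hC⟩ := h.bdd (w v)
      refine tendsto_integral_filter_of_dominated_convergence (fun x => ‖f x‖ * C) ?_ ?_ ?_ ?_
      · refine Eventually.of_forall fun t => ?_
        refine Continuous.aestronglyMeasurable ?_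
        refine (Complex.continuous_conj.comp f.continuous).mul ((hFc v).comp ?_)
        exact (continuous_lam (linv (mBoost t))).const_smul (Real.exp t)⁻¹
      · refine Eventually.of_forall fun t => Eventually.of_forall fun x => ?_
        rw [norm_mul, RCLike.norm_conj]
        exact mul_le_mul_of_nonneg_left (hC _) (norm_nonneg _)
      · exact f.integrable.norm.mul_const C
      · refine Eventually.of_forall fun x => ?_
        exact (((hFc v).tendsto _).comp (tend_Pb x)).const_mul _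
    have hnW : ∀ t (v : D), ‖H496.Wd Q t v‖ = ‖v‖ := fun t v =>
      U_nrmL (Real.exp_pos t) (isLor_boost t) v
    have hlim : ∀ v, Tendsto (fun t => inner ℂ ξ (H496.Wd Q t v)) atTop (𝓝 (Λ v)) := by
      intro v
      have h1 : Tendsto (fun t => inner ℂ (ξ - wt t) (H496.Wd Q t v)) atTop (𝓝 0) := by
        rw [tendsto_zero_iff_norm_tendsto_zero]
        have h2 : Tendsto (fun t => ‖ξ - wt t‖ * ‖v‖) atTop (𝓝 0) := by
          have h3 : Tendsto (fun t => ‖ξ - wt t‖) atTop (𝓝 0) := by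
            have := (tendsto_const_nhds (x := ξ)).sub hwtl
            simpa using this.norm
          simpa using h3.mul_const ‖v‖
        refine squeeze_zero (fun t => norm_nonneg _) (fun t => ?_) h2
        refine (norm_inner_le_norm _ _).trans ?_
        rw [hnW]
      have h2 := h1.add (hlim1 v)
      rw [zero_add] at h2
      refine h2.congr fun t => ?_
      rw [← inner_add_left, sub_add_cancel]
    -- invariance under null rotations
    have hbd : ∀ v, ‖Λ v‖ ≤ ‖ξ‖ * ‖v‖ := by
      intro v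
      refine le_of_tendsto (hlim v).norm (Eventually.of_forall fun t => ?_)
      refine (norm_inner_le_norm _ _).trans ?_
      rw [hnW]
    have hadd : ∀ v v', Λ (v + v') = Λ v + Λ v' := by
      intro v v'
      refine tendsto_nhds_unique (hlim (v + v')) ?_
      simp only [Wd_add, inner_add_right]
      exact (hlim v).add (hlim v')
    have hsm : ∀ (z : ℂ) v, Λ (z • v) = z * Λ v := by
      intro z v
      refine tendsto_nhds_unique (hlim (z • v)) ?_
      simp only [Wd_smul, inner_smul_right]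
      exact (hlim v).const_mul z
    have hinv : ∀ (c' : ℝ × ℝ) v, Λ (Rn Q c' v) = Λ v := by
      intro c' v
      refine tendsto_nhds_unique (hlim _) ?_
      have h1 : Tendsto (fun t : ℝ => inner ℂ (Rn Q (Real.exp (-t) • (-c')) ξ - ξ)
          (H496.Wd Q t v)) atTop (𝓝 0) := by
        rw [tendsto_zero_iff_norm_tendsto_zero]
        have h2 : Tendsto (fun t : ℝ => ‖Rn Q (Real.exp (-t) • (-c')) ξ - ξ‖ * ‖v‖) atTop (𝓝 0) := by
          have h4 := (Rn_der0 (Q := Q) R (-c') ξ).continuousAt.tendsto.comp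
            Real.tendsto_exp_neg_atTop_nhds_zero
          simp only [zero_smul, lw_Rn_zero] at h4
          have h5 := (h4.sub_const ξ).norm
          rw [sub_self, norm_zero] at h5
          simpa using h5.mul_const ‖v‖
        refine squeeze_zero (fun t => norm_nonneg _) (fun t => ?_) h2
        refine (norm_inner_le_norm _ _).trans ?_
        rw [hnW]
      have h2 := h1.add (hlim v)
      rw [zero_add] at h2
      refine h2.congr fun t => ?_
      rw [← inner_add_left, sub_add_cancel, lw_Rn_move R, smul_neg, neg_neg, lw_Rn_Wd R, smul_smul,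
        ← Real.exp_add, add_neg_cancel, Real.exp_zero, one_smul]
    have hgen : ∀ z : D, Λ (I • A (Xn (-c)) z) = 0 := by
      intro z
      set L0 : D →ₗ[ℂ] ℂ := { toFun := Λ, map_add' := hadd, map_smul' := hsm } with hL0
      set L1 : D →L[ℂ] ℂ := L0.mkContinuous ‖ξ‖ (fun v => hbd v) with hL1
      have h1 := (L1.restrictScalars ℝ).hasFDerivAt.comp_hasDerivAt (0 : ℝ)
        (Rn_der0 (Q := Q) R (-c) z)
      have h2 : ((L1.restrictScalars ℝ) ∘ fun s : ℝ => Rn Q (s • (-c)) z) = fun _ => Λ z := by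
        funext s
        exact hinv _ z
      rw [h2] at h1
      exact h1.unique (hasDerivAt_const _ _)
    exact abs_lim (W := H496.Wd Q) Wd_add Wd_smul Wd_inner (lw_Wd_Wd R) hlim (hgen _) v0
  -- conclusion
  have hPc : Continuous fun x : Mink => Pb x := by
    unfold Pb
    fun_prop
  have h1 := fun_unique (h := fun x => F v (Pb x)) (h' := fun _ => 0) ((hFc v).comp hPc)
    continuous_const (fun f _ => by
      rw [key]
      simp)
  have h2 := congrFun h1 (u • WithLp.toLp 2 (nu (-1)))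
  have h3 : Pb (u • WithLp.toLp 2 (nu (-1))) = u • WithLp.toLp 2 (nu (-1)) := by
    unfold Pb
    congr 1
    simp [nu]
  rw [h3] at h2
  exact h2

end Vale.Agent.P352.N86

end
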